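import Vale.Agent.P291Z.Jor.Mod

/-!
# The centralizer of the Jordan model; existence of Jordan forms
-/

set_option linter.all false

namespace Vale.Agent.P291Z.JorM

open Module Matrix Function

variable {K : ℕ} {m : Fin K → ℕ}

theorem rho_apply (h : ∀ k, Matrix (Fin (m k)) (Fin (m k)) ℂ) (k : Fin K) (a b : Fin (m k))
    (s t : Fin (k.1 + 1)) : rho h ⟨k, a, s⟩ ⟨k, b, t⟩ = if s = t then h k a b else 0 := by
  simp [rho]

theorem rho_ne (h : ∀ k, Matrix (Fin (m k)) (Fin (m k)) ℂ) {p q : T m} (e : p.1 ≠ q.1) :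
    rho h p q = 0 := dif_neg e

theorem det_rho_ne_zero {h : ∀ k, Matrix (Fin (m k)) (Fin (m k)) ℂ} :
    (rho h).det ≠ 0 ↔ ∀ k, (h k).det ≠ 0 := by
  refine ⟨fun H k e => ?_, fun H => ?_⟩
  · obtain ⟨y, hy, e⟩ := exists_mulVec_eq_zero_iff.2 e
    obtain ⟨a, ha⟩ := Function.ne_iff.1 hy
    have h1 : h * Pi.single k (of fun b _ => y b) = 0 := funext fun l => by
      by_cases hl : l = k
      · subst hl
        rw [Pi.mul_apply, Pi.single_eq_same]
        exact Matrix.ext fun b _ => congrFun e b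
      · rw [Pi.mul_apply, Pi.single_eq_of_ne hl, Matrix.mul_zero, Pi.zero_apply]
    have h2 := congrArg rho h1
    rw [map_mul, map_zero, ((isUnit_iff_isUnit_det _).2 (Ne.isUnit H)).mul_right_eq_zero] at h2
    have := congrFun (congrFun h2 ⟨k, a, 0⟩) ⟨k, a, 0⟩
    rw [rho_apply, if_pos rfl, Pi.single_eq_same] at this
    exact ha this
  · have : IsUnit h := Pi.isUnit_iff.2 fun k => (isUnit_iff_isUnit_det _).2 (H k).isUnit
    exact ((isUnit_iff_isUnit_det _).1 (this.map rho)).ne_zero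

/-- the top blocks -/
def top (z : Matrix (T m) (T m) ℂ) (k : Fin K) : Matrix (Fin (m k)) (Fin (m k)) ℂ :=
  of fun a b => z ⟨k, a, 0⟩ ⟨k, b, 0⟩

theorem apply_of_mem {z : Matrix (T m) (T m) ℂ} (h : z ∈ Int m (J m)) (l k : Fin K) (b : Fin (m l))
    (a : Fin (m k)) (s : Fin (l.1 + 1)) (t : Fin (k.1 + 1)) : z ⟨l, b, s⟩ ⟨k, a, t⟩ =
      if t.1 ≤ s.1 then z ⟨l, b, ⟨s.1 - t.1, by omega⟩⟩ ⟨k, a, 0⟩ else 0 :=
  (congrFun (congrFun (gen_hd h).symm _) _).trans
    (J_pow_mulVec t.1 (fun p => z p ⟨k, a, 0⟩) l b s)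

theorem head_eq_zero {z : Matrix (T m) (T m) ℂ} (h : z ∈ Int m (J m)) {k : Fin K} (a : Fin (m k))
    {p : T m} (hp : p.2.2.1 + (k.1 + 1) ≤ p.1.1) : z p ⟨k, a, 0⟩ = 0 :=
  J_pow_mulVec_eq_zero.1 (show J m ^ (k.1 + 1) *ᵥ (fun p => z p ⟨k, a, 0⟩) = 0 from funext fun r =>
    congrFun (congrFun (mul_gen_iff.1 ((gen_hd h).symm ▸ h) k) r) a) p hp

theorem eq_rho_of_le {z : Matrix (T m) (T m) ℂ} (h : z ∈ Int m (J m)) {p q : T m}
    (e : (q.1.1 : ℤ) - 2 * q.2.2.1 ≤ p.1.1 - 2 * p.2.2.1) : z p q = rho (top z) p q := by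
  obtain ⟨l, b, s⟩ := p
  obtain ⟨k, a, t⟩ := q
  dsimp only at e
  rw [apply_of_mem h]
  by_cases hl : l = k
  · subst hl
    rw [rho_apply]
    by_cases hs : s = t
    · subst hs
      simp [top]
    · rw [if_neg hs, if_neg fun h => hs (Fin.ext (by omega))]
  · rw [rho_ne _ hl]
    split_ifs with ht
    · have := Fin.val_ne_of_ne hl
      exact head_eq_zero h a (by dsimp only; omega)
    · rfl

theorem det_of_mem {z : Matrix (T m) (T m) ℂ} (h : z ∈ Int m (J m)) : z.det = (rho (top z)).det := by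
  have h0 : ∀ p q : T m, (q.1.1 : ℤ) - 2 * q.2.2.1 < p.1.1 - 2 * p.2.2.1 → rho (top z) p q = 0 := by
    rintro ⟨l, b, s⟩ ⟨k, a, t⟩ e
    by_cases hl : l = k
    · subst hl
      rw [rho_apply, if_neg]
      rintro rfl
      exact lt_irrefl _ e
    · exact rho_ne _ hl
  have h1 : z.BlockTriangular fun p => (p.1.1 : ℤ) - 2 * p.2.2.1 := fun p q e =>
    (eq_rho_of_le h e.le).trans (h0 p q e)
  rw [h1.det, BlockTriangular.det (b := fun p : T m => (p.1.1 : ℤ) - 2 * p.2.2.1) h0]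
  refine Finset.prod_congr rfl fun a _ => congrArg det (Matrix.ext fun p q => ?_)
  exact eq_rho_of_le h (q.2.trans p.2.symm).le

theorem det_ne_zero_iff {z : Matrix (T m) (T m) ℂ} (h : z ∈ Int m (J m)) :
    z.det ≠ 0 ↔ ∀ k, (top z k).det ≠ 0 := by
  rw [det_of_mem h, det_rho_ne_zero]

/-- **Jordan form** at the eigenvalue zero -/
theorem exists_jordan {n : Type} [Fintype n] [DecidableEq n] (N : Matrix n n ℂ) {β : Type}
    [Fintype β] [DecidableEq β]
    (h : ∀ j, finrank ℂ (LinearMap.ker (N ^ j).mulVecLin) = ∑ k, m k * min j (k.1 + 1))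
    (hn : Fintype.card n = ∑ k, m k * (k.1 + 1) + Fintype.card β) :
    ∃ (φ : Matrix n (T m ⊕ β) ℂ) (φ' : Matrix (T m ⊕ β) n ℂ) (N' : Matrix β β ℂ),
      φ * φ' = 1 ∧ φ' * φ = 1 ∧ N'.det ≠ 0 ∧ N * φ = φ * fromBlocks (J m) 0 0 N' := by
  let f : End ℂ (n → ℂ) := N.mulVecLin
  have hf : ∀ j, f ^ j = (N ^ j).mulVecLin := fun j => (map_pow toLinAlgEquiv' N j).symm
  obtain ⟨M, hM, hK⟩ :=
    ((LinearMap.eventually_isCompl_ker_pow_range_pow f).and (Filter.eventually_ge_atTop K)).exists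
  have c : ∀ x, f ((f ^ M) x) = (f ^ M) (f x) := fun x =>
    LinearMap.congr_fun ((pow_succ' f M).symm.trans (pow_succ f M)) x
  let f₁ : End ℂ (LinearMap.ker (f ^ M)) := f.restrict fun x hx => by
    rw [LinearMap.mem_ker, ← c, LinearMap.mem_ker.1 hx, map_zero]
  let f₂ : End ℂ (LinearMap.range (f ^ M)) := f.restrict (by
    rintro _ ⟨x, rfl⟩
    exact ⟨_, (c x).symm⟩)
  have hd : ∀ j, K ≤ j → finrank ℂ (LinearMap.ker (f ^ j)) = Fintype.card (T m) := fun j hj => by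
    rw [hf, h, card_T]
    exact Finset.sum_congr rfl fun k _ => by rw [min_eq_right (by have := k.2; omega)]
  have hle : ∀ j, LinearMap.ker (f ^ j) ≤ LinearMap.ker (f ^ M) := fun j => by
    have h1 : LinearMap.ker (f ^ M) ≤ LinearMap.ker (f ^ (M + j)) :=
      f.iterateKer.monotone (Nat.le_add_right M j)
    rw [Submodule.eq_of_le_of_finrank_eq h1 ((hd M hK).trans (hd _ (by omega)).symm)]
    exact f.iterateKer.monotone (Nat.le_add_left j M)
  have hJ : ∀ j, (J m).mulVecLin ^ j = (J m ^ j).mulVecLin := fun j =>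
    (map_pow toLinAlgEquiv' (J m) j).symm
  obtain ⟨e₁, he₁⟩ := conj_of_rank K (f := (J m).mulVecLin) (g := f₁)
    (by rw [hJ, J_pow_K, mulVecLin_zero]) fun j => by
      have h1 := ((J m).mulVecLin ^ j).finrank_range_add_finrank_ker
      have h2 := (f₁ ^ j).finrank_range_add_finrank_ker
      rw [hJ, finrank_ker_J, finrank_fintype_fun_eq_card, ← h, ← hf, ← hJ] at h1
      have h3 : LinearMap.ker (f₁ ^ j) = (LinearMap.ker (f ^ j)).comap (Submodule.subtype _) := by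
        rw [End.pow_restrict, LinearMap.ker_restrict]
      rw [hd M hK, h3, (Submodule.comapSubtypeEquivOfLe (hle j)).finrank_eq] at h2
      omega
  let e₂ : (β → ℂ) ≃ₗ[ℂ] LinearMap.range (f ^ M) := LinearEquiv.ofFinrankEq _ _ (by
    have := (f ^ M).finrank_range_add_finrank_ker
    rw [hd M hK, card_T, finrank_fintype_fun_eq_card, hn] at this
    rw [finrank_fintype_fun_eq_card]
    omega)
  let e := ((LinearEquiv.sumArrowLequivProdArrow (T m) β ℂ ℂ).trans (e₁.prodCongr e₂)).trans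
    (Submodule.prodEquivOfIsCompl _ _ hM)
  let g := e₂.symm.toLinearMap ∘ₗ f₂ ∘ₗ e₂.toLinearMap
  refine ⟨LinearMap.toMatrix' e.toLinearMap, LinearMap.toMatrix' e.symm.toLinearMap,
    LinearMap.toMatrix' g, ?_, ?_, fun h0 => ?_, toLin'.injective (LinearMap.ext fun x => ?_)⟩
  · rw [← LinearMap.toMatrix'_comp, LinearEquiv.comp_symm, LinearMap.toMatrix'_id]
  · rw [← LinearMap.toMatrix'_comp, LinearEquiv.symm_comp, LinearMap.toMatrix'_id]
  · obtain ⟨y, hy, h0⟩ := exists_mulVec_eq_zero_iff.2 h0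
    rw [LinearMap.toMatrix'_mulVec] at h0
    have h1 : f (e₂ y) = 0 := congrArg Subtype.val (e₂.symm.map_eq_zero_iff.1 h0)
    exact hy (e₂.map_eq_zero_iff.1 (Subtype.ext
      (Submodule.disjoint_def.1 hM.disjoint _ (hle 1 h1) (e₂ y).2)))
  · rw [toLin'_mul_apply, toLin'_mul_apply, toLin'_toMatrix', toLin'_apply, toLin'_apply,
      fromBlocks_mulVec, zero_mulVec, zero_mulVec, add_zero, zero_add, LinearMap.toMatrix'_mulVec]
    show f ((e₁ (x ∘ Sum.inl)).1 + (e₂ (x ∘ Sum.inr)).1) =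
      (e₁ ((J m).mulVecLin (x ∘ Sum.inl))).1 + (e₂ (e₂.symm (f₂ (e₂ (x ∘ Sum.inr))))).1
    rw [he₁, e₂.apply_symm_apply, map_add]
    rfl

end Vale.Agent.P291Z.JorM
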