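import Mathlib

/-!
# Nilpotent endomorphisms with the same ranks of all powers are conjugate
-/

set_option linter.all false

namespace Vale.Agent.P291Z.JorM

open Module LinearMap

variable {V W : Type} [AddCommGroup V] [Module ℂ V] [FiniteDimensional ℂ V] [AddCommGroup W]
  [Module ℂ W] [FiniteDimensional ℂ W]

theorem exists_equiv_extend {S : Submodule ℂ V} {T : Submodule ℂ W} (e : S ≃ₗ[ℂ] T)
    (h : finrank ℂ V = finrank ℂ W) : ∃ g : V ≃ₗ[ℂ] W, ∀ x : S, g x = e x := by
  let i := LinearEquiv.ofFinrankEq V W h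
  obtain ⟨g, hg⟩ := Submodule.exists_linearEquiv_restrict_eq ((i.submoduleMap S).symm.trans e)
  exact ⟨i.trans g, fun x => (hg (i.submoduleMap S x)).symm.trans (by simp)⟩

/-- the restriction to the range -/
def res (f : End ℂ V) : End ℂ (range f) := f.restrict fun x _ => mem_range_self f x

theorem res_pow (f : End ℂ V) (j : ℕ) (x : range f) : ((res f ^ j) x : V) = (f ^ j) x := by
  rw [res, End.pow_restrict]
  rfl

theorem finrank_res (f : End ℂ V) (j : ℕ) :
    finrank ℂ (range (res f ^ j)) = finrank ℂ (range (f ^ (j + 1))) := by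
  rw [← Submodule.finrank_map_subtype_eq]
  refine congrArg (fun S : Submodule ℂ V => finrank ℂ S) (Submodule.ext fun x => ⟨?_, ?_⟩)
  · rintro ⟨_, ⟨⟨_, y, rfl⟩, rfl⟩, rfl⟩
    exact ⟨y, (res_pow f j ⟨_, y, rfl⟩).symm⟩
  · rintro ⟨y, rfl⟩
    exact ⟨_, ⟨⟨_, y, rfl⟩, rfl⟩, res_pow f j ⟨_, y, rfl⟩⟩

theorem extend_conj {f : End ℂ V} {g : End ℂ W} (h : finrank ℂ V = finrank ℂ W)
    (e : range f ≃ₗ[ℂ] range g) (he : ∀ x, e (res f x) = res g (e x)) :
    ∃ E : V ≃ₗ[ℂ] W, ∀ x, E (f x) = g (E x) := by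
  obtain ⟨r, hr⟩ := g.rangeRestrict.exists_rightInverse_of_surjective g.range_rangeRestrict
  let L : V →ₗ[ℂ] W := r ∘ₗ e.toLinearMap ∘ₗ f.rangeRestrict
  have hL : ∀ x, g (L x) = e (f.rangeRestrict x) := fun x =>
    congrArg Subtype.val (LinearMap.congr_fun hr (e (f.rangeRestrict x)))
  have hk : ∀ x : range f, f x = 0 ↔ g (e x) = 0 := fun x => by
    rw [show g (e x) = e (res f x) from congrArg Subtype.val (he x).symm, ZeroMemClass.coe_eq_zero,
      e.map_eq_zero_iff]
    exact ⟨fun h => Subtype.ext h, fun h => congrArg Subtype.val h⟩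
  let e' : (range f).comap (ker f).subtype ≃ₗ[ℂ] (range g).comap (ker g).subtype :=
    { toFun := fun x => ⟨⟨e ⟨_, x.2⟩, (hk _).1 x.1.2⟩, (e _).2⟩
      invFun := fun y => ⟨⟨e.symm ⟨_, y.2⟩, (hk _).2 (by
        rw [e.apply_symm_apply]; exact y.1.2)⟩, (e.symm _).2⟩
      map_add' := fun x y => Subtype.ext (Subtype.ext
        (congrArg (Subtype.val : range g → W) (e.map_add ⟨_, x.2⟩ ⟨_, y.2⟩) :))
      map_smul' := fun c x => Subtype.ext (Subtype.ext
        (congrArg (Subtype.val : range g → W) (e.map_smul c ⟨_, x.2⟩) :))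
      left_inv := fun x => Subtype.ext (Subtype.ext
        (congrArg (Subtype.val : range f → V) (e.symm_apply_apply ⟨_, x.2⟩) :))
      right_inv := fun x => Subtype.ext (Subtype.ext
        (congrArg (Subtype.val : range g → W) (e.apply_symm_apply ⟨_, x.2⟩) :)) }
  obtain ⟨k, hk'⟩ := exists_equiv_extend e' (by
    have h1 := f.finrank_range_add_finrank_ker
    have h2 := g.finrank_range_add_finrank_ker
    have h3 := e.finrank_eq
    omega)
  let p : V →ₗ.[ℂ] W := ⟨range f, (range g).subtype ∘ₗ e.toLinearMap⟩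
  let q : V →ₗ.[ℂ] W := ⟨ker f, (ker g).subtype ∘ₗ k.toLinearMap⟩
  have H : ∀ (x : p.domain) (y : q.domain), (x : V) = y → p x = q y := by
    rintro ⟨x, hx⟩ ⟨y, hy⟩ (rfl : x = y)
    exact (congrArg Subtype.val (hk' ⟨⟨x, hy⟩, hx⟩)).symm
  have h1 : ∀ z, g (p.sup q H z) = g (L z) := by
    rintro ⟨z, hz⟩
    obtain ⟨x, hx, y, hy, rfl⟩ := Submodule.mem_sup.1 hz
    rw [show p.sup q H ⟨x + y, hz⟩ = _ from LinearPMap.sup_apply H ⟨x, hx⟩ ⟨y, hy⟩ _ rfl, map_add, hL,
      show g (q ⟨y, hy⟩) = 0 from (k _).2, add_zero]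
    exact (congrArg Subtype.val (he ⟨x, hx⟩).symm).trans (congrArg (fun t => (e t).1)
      (Subtype.ext (by simp [res, mem_ker.1 hy])))
  obtain ⟨δ, hδ⟩ := exists_extend (((p.sup q H).toFun - L ∘ₗ Submodule.subtype _).codRestrict
    (ker g) fun z => by
      rw [mem_ker, LinearMap.sub_apply, map_sub]
      exact sub_eq_zero.2 (h1 z))
  let E : V →ₗ[ℂ] W := L + (ker g).subtype ∘ₗ δ
  have h2 : ∀ z : (p.sup q H).domain, E z = p.sup q H z := fun z =>
    (congrArg (L z + ·) (congrArg Subtype.val (LinearMap.congr_fun hδ z))).trans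
      (add_sub_cancel _ _)
  have h3 : ∀ x, g (E x) = e (f.rangeRestrict x) := fun x =>
    (map_add g _ _).trans ((congrArg (_ + ·) (δ x).2).trans ((add_zero _).trans (hL x)))
  have h4 : Function.Injective E := (injective_iff_map_eq_zero _).2 fun x hx => by
    have h5 : f x = 0 := by
      have := h3 x
      rw [hx, map_zero, eq_comm, ZeroMemClass.coe_eq_zero, e.map_eq_zero_iff] at this
      exact congrArg Subtype.val this
    have h6 := (p.right_le_sup q H).2 (x := ⟨x, h5⟩) (y := ⟨x, Submodule.mem_sup_right h5⟩) rfl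
    rw [← h2, hx] at h6
    exact congrArg Subtype.val (k.map_eq_zero_iff.1 (Subtype.ext h6))
  refine ⟨LinearEquiv.ofInjectiveOfFinrankEq E h4 h, fun x => ?_⟩
  exact ((h2 ⟨f x, Submodule.mem_sup_left ⟨x, rfl⟩⟩).trans
    ((p.left_le_sup q H).2 (x := ⟨f x, x, rfl⟩) rfl).symm).trans (h3 x).symm

theorem conj_of_rank (N : ℕ) : ∀ {V W : Type} [AddCommGroup V] [Module ℂ V] [FiniteDimensional ℂ V]
    [AddCommGroup W] [Module ℂ W] [FiniteDimensional ℂ W] {f : End ℂ V} {g : End ℂ W},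
    f ^ N = 0 → (∀ j, finrank ℂ (range (f ^ j)) = finrank ℂ (range (g ^ j))) →
    ∃ E : V ≃ₗ[ℂ] W, ∀ x, E (f x) = g (E x) := by
  induction N with
  | zero =>
    intro V W _ _ _ _ _ _ f g hf h
    have h0 := h 0
    rw [pow_zero, pow_zero, End.one_eq_id, End.one_eq_id, range_id, range_id, finrank_top,
      finrank_top] at h0
    have : Subsingleton V := ⟨fun x y => (LinearMap.congr_fun hf x).trans
      (LinearMap.congr_fun hf y).symm⟩
    exact ⟨LinearEquiv.ofFinrankEq V W h0, fun x => by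
      rw [Subsingleton.elim x 0, map_zero, map_zero, map_zero]⟩
  | succ N ih =>
    intro V W _ _ _ _ _ _ f g hf h
    have h0 := h 0
    rw [pow_zero, pow_zero, End.one_eq_id, End.one_eq_id, range_id, range_id, finrank_top,
      finrank_top] at h0
    obtain ⟨e, he⟩ := ih (f := res f) (g := res g) (LinearMap.ext fun ⟨_, y, hy⟩ => Subtype.ext (by
      rw [res_pow]
      exact hy ▸ LinearMap.congr_fun hf y)) fun j => by rw [finrank_res, finrank_res, h]
    exact extend_conj h0 e he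

end Vale.Agent.P291Z.JorM
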