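import Vale.Agent.P291Z.Jor.Conj

/-!
# The Jordan model of a nilpotent matrix and its intertwiners
-/

set_option linter.all false

namespace Vale.Agent.P291Z.JorM

open Module Matrix Function

variable {K : ℕ} (m : Fin K → ℕ)

/-- the basis of the model: block size `k + 1`, number of the block, position in the block -/
abbrev T : Type := Σ k : Fin K, Fin (m k) × Fin (k.1 + 1)

theorem card_T : Fintype.card (T m) = ∑ k, m k * (k.1 + 1) := by simp

variable {m}

theorem T.ext {k : Fin K} {a b : Fin (m k)} {s t : Fin (k.1 + 1)} :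
    (⟨k, a, s⟩ : T m) = ⟨k, b, t⟩ ↔ a = b ∧ s = t := by simp

variable (m) in
/-- the nilpotent Jordan matrix -/
def J : Matrix (T m) (T m) ℂ :=
  blockDiagonal' fun _ => of fun p q => if p.1 = q.1 ∧ p.2.1 = q.2.1 + 1 then 1 else 0

/-- the reductive part of the centralizer -/
def rho : (∀ k, Matrix (Fin (m k)) (Fin (m k)) ℂ) →+* Matrix (T m) (T m) ℂ where
  toFun h := blockDiagonal' fun k => of fun p q => if p.2 = q.2 then h k p.1 q.1 else 0
  map_one' := by
    rw [← blockDiagonal'_one]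
    refine congrArg _ (funext fun k => Matrix.ext fun p q => ?_)
    by_cases h : p.1 = q.1 <;> simp [one_apply, Prod.ext_iff, h]
  map_mul' h h' := by
    rw [← blockDiagonal'_mul]
    refine congrArg _ (funext fun k => Matrix.ext fun p q => ?_)
    simp [mul_apply, Fintype.sum_prod_type]
  map_zero' := by
    rw [← blockDiagonal'_zero]
    refine congrArg _ (funext fun k => Matrix.ext fun p q => ?_)
    simp
  map_add' h h' := by
    rw [← blockDiagonal'_add]
    refine congrArg _ (funext fun k => Matrix.ext fun p q => ?_)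
    simp [apply_ite₂, ite_add_ite]

variable {n : Type}

theorem mul_J (z : Matrix n (T m) ℂ) (r : n) (k : Fin K) (a : Fin (m k)) (t : Fin (k.1 + 1)) :
    (z * J m) r ⟨k, a, t⟩ = if h : t.1 + 1 < k.1 + 1 then z r ⟨k, a, ⟨t.1 + 1, h⟩⟩ else 0 := by
  rw [mul_apply, Fintype.sum_sigma, Finset.sum_eq_single k
    (fun l _ h => by simp [J, blockDiagonal'_apply_ne _ _ _ h]) (by simp)]
  simp only [J, blockDiagonal'_apply_eq, of_apply, Fintype.sum_prod_type, ite_and, mul_ite,
    mul_one, mul_zero, Finset.sum_ite_irrel, Finset.sum_const_zero, Finset.sum_ite_eq',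
    Finset.mem_univ, if_true]
  split_ifs with h
  · rw [Finset.sum_eq_single ⟨_, h⟩ (fun s _ hs => if_neg fun e => hs (Fin.ext e)) (by simp),
      if_pos rfl]
  · exact Finset.sum_eq_zero fun s _ => if_neg fun e : s.1 = t.1 + 1 => h (e ▸ s.2)

theorem J_mulVec (y : T m → ℂ) (k : Fin K) (a : Fin (m k)) (t : Fin (k.1 + 1)) :
    (J m *ᵥ y) ⟨k, a, t⟩ = if 1 ≤ t.1 then y ⟨k, a, ⟨t.1 - 1, by omega⟩⟩ else 0 := by
  rw [mulVec, dotProduct, Fintype.sum_sigma, Finset.sum_eq_single k
    (fun l _ h => by simp [J, blockDiagonal'_apply_ne _ _ _ h.symm]) (by simp)]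
  simp only [J, blockDiagonal'_apply_eq, of_apply, Fintype.sum_prod_type, ite_and, ite_mul,
    one_mul, zero_mul, Finset.sum_ite_irrel, Finset.sum_const_zero, Finset.sum_ite_eq,
    Finset.mem_univ, if_true]
  split_ifs with h
  · rw [Finset.sum_eq_single ⟨t.1 - 1, by omega⟩
      (fun s _ hs => if_neg fun e => hs (Fin.ext (by simp only; omega))) (by simp),
      if_pos (by simp only; omega)]
  · exact Finset.sum_eq_zero fun s _ => if_neg (by omega)

theorem J_pow_mulVec (j : ℕ) (y : T m → ℂ) (k : Fin K) (a : Fin (m k)) (t : Fin (k.1 + 1)) :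
    (J m ^ j *ᵥ y) ⟨k, a, t⟩ = if j ≤ t.1 then y ⟨k, a, ⟨t.1 - j, by omega⟩⟩ else 0 := by
  induction j generalizing t with
  | zero => simp
  | succ j ih =>
    rw [pow_succ', ← mulVec_mulVec, J_mulVec, ih]
    simp only
    split_ifs <;> first | rfl | omega | simp only [Nat.sub_sub, add_comm]

theorem J_pow_mulVec_eq_zero {j : ℕ} {y : T m → ℂ} :
    J m ^ j *ᵥ y = 0 ↔ ∀ p : T m, p.2.2.1 + j ≤ p.1.1 → y p = 0 := by
  refine ⟨fun h ⟨k, a, t⟩ ht => ?_, fun h => funext fun ⟨k, a, t⟩ => ?_⟩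
  · have := congrFun h ⟨k, a, ⟨t.1 + j, Nat.lt_succ_of_le ht⟩⟩
    rw [J_pow_mulVec, if_pos (Nat.le_add_left _ _)] at this
    simpa using this
  · rw [J_pow_mulVec]
    split_ifs with ht
    · exact h _ (by simp only; omega)
    · rfl

theorem J_pow_K : J m ^ K = 0 :=
  ext_of_mulVec_single fun q => (J_pow_mulVec_eq_zero.2 fun p h => by
    have := p.1.2
    omega).trans (zero_mulVec _).symm

theorem finrank_ker_J (j : ℕ) :
    finrank ℂ (LinearMap.ker (J m ^ j).mulVecLin) = ∑ k, m k * min j (k.1 + 1) := by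
  have e : LinearMap.ker (J m ^ j).mulVecLin =
      Submodule.pi {p : T m | p.2.2.1 + j ≤ p.1.1} fun _ => ⊥ :=
    Submodule.ext fun y => J_pow_mulVec_eq_zero
  let s : Finset (T m) := Finset.univ.filter fun p => ¬ p.2.2.1 + j ≤ p.1.1
  have e' : (s → ℂ) ≃ₗ[ℂ] Submodule.pi {p : T m | p.2.2.1 + j ≤ p.1.1} fun _ => (⊥ : Submodule ℂ ℂ) :=
    { toFun := fun y => ⟨fun p => if h : p ∈ s then y ⟨p, h⟩ else 0, fun p hp =>
        dif_neg fun h : p ∈ s => (Finset.mem_filter.1 h).2 hp⟩
      invFun := fun y p => y.1 p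
      map_add' := fun _ _ => Subtype.ext (funext fun p => by by_cases h : p ∈ s <;> simp [h])
      map_smul' := fun _ _ => Subtype.ext (funext fun p => by by_cases h : p ∈ s <;> simp [h])
      left_inv := fun y => funext fun p => dif_pos p.2
      right_inv := fun y => Subtype.ext (funext fun p => by
        by_cases h : p ∈ s
        · exact dif_pos h
        · exact (dif_neg h).trans (y.2 p (by simpa [s] using h)).symm) }
  rw [e, ← e'.finrank_eq, finrank_fintype_fun_eq_card, Fintype.card_coe, Finset.card_filter,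
    Fintype.sum_sigma]
  refine Finset.sum_congr rfl fun k _ => ?_
  rw [Fintype.sum_prod_type]
  refine (Finset.sum_congr rfl fun a _ => (?_ : _ = min j (k.1 + 1))).trans (by simp)
  refine (Fin.sum_univ_eq_sum_range (fun t => if ¬ t + j ≤ k.1 then 1 else 0) _).trans ?_
  rw [← Finset.card_filter, show (Finset.range (k.1 + 1)).filter (fun t => ¬ t + j ≤ k.1) =
      Finset.Ico (k.1 + 1 - j) (k.1 + 1) by ext; simp; omega, Nat.card_Ico]
  omega

/-- the columns at the heads of the blocks -/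
def hd : Matrix n (T m) ℂ →ₗ[ℂ] ∀ k, Matrix n (Fin (m k)) ℂ where
  toFun z k := of fun r a => z r ⟨k, a, 0⟩
  map_add' _ _ := rfl
  map_smul' _ _ := rfl

variable [Fintype n] [DecidableEq n] (N : Matrix n n ℂ)

/-- the matrix generated by its columns at the heads of the blocks -/
def gen : (∀ k, Matrix n (Fin (m k)) ℂ) →ₗ[ℂ] Matrix n (T m) ℂ where
  toFun x := of fun r p => (N ^ p.2.2.1 * x p.1) r p.2.1
  map_add' x y := Matrix.ext fun r p => by simp [Matrix.mul_add]
  map_smul' c x := Matrix.ext fun r p => by simp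

theorem gen_apply (x : ∀ k, Matrix n (Fin (m k)) ℂ) (r : n) (k : Fin K) (a : Fin (m k))
    (t : Fin (k.1 + 1)) : gen N x r ⟨k, a, t⟩ = (N ^ t.1 * x k) r a := rfl

theorem hd_gen (x : ∀ k, Matrix n (Fin (m k)) ℂ) : hd (gen N x) = x :=
  funext fun k => Matrix.ext fun r a => (gen_apply N x r k a 0).trans (by simp)

theorem gen_injective : Injective (gen (m := m) N) := LeftInverse.injective (hd_gen N)

theorem mul_gen (x : ∀ k, Matrix n (Fin (m k)) ℂ) (r : n) (k : Fin K) (a : Fin (m k))
    (t : Fin (k.1 + 1)) : (N * gen N x) r ⟨k, a, t⟩ = (N ^ (t.1 + 1) * x k) r a := by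
  rw [pow_succ', Matrix.mul_assoc]
  rfl

theorem gen_mul_rho (x : ∀ k, Matrix n (Fin (m k)) ℂ) (h : ∀ k, Matrix (Fin (m k)) (Fin (m k)) ℂ) :
    gen N x * rho h = gen N fun k => x k * h k := by
  ext r ⟨k, a, t⟩
  rw [gen_apply, ← Matrix.mul_assoc, mul_apply, mul_apply, Fintype.sum_sigma, Finset.sum_eq_single k
    (fun l _ e => by simp [rho, blockDiagonal'_apply_ne _ _ _ e]) (by simp)]
  simp [rho, Fintype.sum_prod_type, gen_apply]

variable {N}

theorem mul_gen_iff {x : ∀ k, Matrix n (Fin (m k)) ℂ} :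
    N * gen N x = gen N x * J m ↔ ∀ k, N ^ (k.1 + 1) * x k = 0 := by
  refine ⟨fun h k => Matrix.ext fun r a => ?_, fun h => Matrix.ext fun r ⟨k, a, t⟩ => ?_⟩
  · have := congrFun (congrFun h r) ⟨k, a, Fin.last k.1⟩
    rwa [mul_gen, mul_J, dif_neg (by simp)] at this
  · rw [mul_gen, mul_J]
    split_ifs with ht
    · rfl
    · rw [show t.1 = k.1 by omega, h]
      rfl

theorem gen_hd {z : Matrix n (T m) ℂ} (h : N * z = z * J m) : gen N (hd z) = z := by
  ext r ⟨k, a, t, ht⟩
  rw [gen_apply]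
  induction t generalizing r with
  | zero =>
    rw [pow_zero, Matrix.one_mul]
    rfl
  | succ t ih =>
    have := congrFun (congrFun h r) ⟨k, a, t, by omega⟩
    rw [mul_J, dif_pos ht] at this
    rw [← this, pow_succ', Matrix.mul_assoc, mul_apply, mul_apply]
    exact Finset.sum_congr rfl fun s _ => congrArg _ (ih s _)

variable (m N) in
/-- the intertwiners from the model -/
def Int : Submodule ℂ (Matrix n (T m) ℂ) where
  carrier := {z | N * z = z * J m}
  add_mem' {a b} ha hb := by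
    rw [Set.mem_setOf_eq, Matrix.mul_add, Matrix.add_mul, ha, hb]
  zero_mem' := by simp
  smul_mem' c a ha := by rw [Set.mem_setOf_eq, Matrix.mul_smul, Matrix.smul_mul, ha]

theorem mem_Int {z : Matrix n (T m) ℂ} : z ∈ Int m N ↔ N * z = z * J m := Iff.rfl

theorem finrank_Int : finrank ℂ (Int m N) =
    ∑ k, m k * finrank ℂ (LinearMap.ker (N ^ (k.1 + 1)).mulVecLin) := by
  let e : Int m N ≃ₗ[ℂ] ∀ k, Fin (m k) → LinearMap.ker (N ^ (k.1 + 1)).mulVecLin :=
    { toFun := fun z k a => ⟨fun r => hd z.1 k r a, funext fun r => congrFun (congrFun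
        (mul_gen_iff.1 ((gen_hd z.2).symm ▸ z.2) k) r) a⟩
      invFun := fun y => ⟨gen N fun k => of fun r a => (y k a).1 r, mul_gen_iff.2 fun k =>
        Matrix.ext fun r a => congrFun (y k a).2 r⟩
      map_add' := fun _ _ => rfl
      map_smul' := fun _ _ => rfl
      left_inv := fun z => Subtype.ext (gen_hd z.2)
      right_inv := fun y => funext fun k => funext fun a => Subtype.ext (funext fun r =>
        congrFun (congrFun (congrFun (hd_gen N _) k) r) a) }
  rw [e.finrank_eq, finrank_pi_fintype]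
  simp [finrank_pi_fintype]

theorem finrank_Int_J {K' : ℕ} (m' : Fin K' → ℕ) : finrank ℂ (Int m (J m')) =
    ∑ k, ∑ l, m' k * m l * min (k.1 + 1) (l.1 + 1) := by
  rw [finrank_Int, Finset.sum_comm]
  refine Finset.sum_congr rfl fun l _ => ?_
  rw [finrank_ker_J, Finset.mul_sum]
  exact Finset.sum_congr rfl fun k _ => by rw [min_comm]; ring

theorem finrank_Int_zero : finrank ℂ (Int m (0 : Matrix n n ℂ)) = Fintype.card n * ∑ k, m k := by
  rw [finrank_Int, mul_comm, Finset.sum_mul]
  refine Finset.sum_congr rfl fun k _ => ?_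
  rw [zero_pow k.1.succ_ne_zero, mulVecLin_zero, LinearMap.ker_zero, finrank_top,
    finrank_fintype_fun_eq_card]

theorem J_mul_rho (h : ∀ k, Matrix (Fin (m k)) (Fin (m k)) ℂ) : J m * rho h = rho h * J m := by
  have h1 : gen (J m) (hd 1) = 1 := gen_hd (by rw [Matrix.mul_one, Matrix.one_mul])
  rw [← Matrix.one_mul (rho h), ← h1, gen_mul_rho]
  refine mul_gen_iff.2 fun k => ?_
  rw [← Matrix.mul_assoc, mul_gen_iff.1 (by rw [h1, Matrix.mul_one, Matrix.one_mul]) k,
    Matrix.zero_mul]

end Vale.Agent.P291Z.JorM
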